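import Mathlib

/-!
# Packing count and the cover set of the general-body argument (P243)

`packing_finite`: if every point `e` of a set `Z` carries a measurable set `Sig e` of measure at
least `v0` inside a set `A` of finite measure, and two of these sets can only meet when their
base points are at distance at most `r`, then `Z` is covered by the closed `r`-balls around
finitely many of its points, at most `μ A / v0` of them.

`exists_cover_set`: in Euclidean 3-space, with `r = 4 d0`, the part `N` of a compact set `K`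
inside the closed `5 d0`-balls around these points is compact, contains every point of `K`
within `d0` of `Z`, and has volume at most `(μ A / v0) * (4 π / 3) (5 d0)^3`.
-/

open MeasureTheory Set Metric
open scoped ENNReal

namespace Vale.Agent.H9.GenK

theorem packing_finite {E : Type*} [MetricSpace E] [MeasurableSpace E] (μ : Measure E)
    {Z A : Set E} (Sig : E → Set E) {v0 : ℝ≥0∞} (hv0 : v0 ≠ 0) (hA : μ A ≠ ⊤) {r : ℝ}
    (hSigm : ∀ e ∈ Z, MeasurableSet (Sig e)) (hSigA : ∀ e ∈ Z, Sig e ⊆ A)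
    (hvol : ∀ e ∈ Z, v0 ≤ μ (Sig e))
    (hapart : ∀ e ∈ Z, ∀ e' ∈ Z, (Sig e ∩ Sig e').Nonempty → dist e e' ≤ r) :
    ∃ F : Finset E, (↑F : Set E) ⊆ Z ∧ (F.card : ℝ≥0∞) * v0 ≤ μ A ∧
      Z ⊆ ⋃ e ∈ F, closedBall e r := by
  classical
  -- separated finite subsets of `Z`
  let Sep : Finset E → Prop := fun F =>
    (↑F : Set E) ⊆ Z ∧ ∀ e ∈ F, ∀ e' ∈ F, e ≠ e' → r < dist e e'
  have hcard : ∀ F : Finset E, Sep F → (F.card : ℝ≥0∞) * v0 ≤ μ A := by
    intro F hF
    have hdisj : Set.PairwiseDisjoint (↑F : Set E) Sig := by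
      intro e he e' he' hne
      rw [Function.onFun, Set.disjoint_iff_inter_eq_empty]
      by_contra hcon
      have hnon : (Sig e ∩ Sig e').Nonempty := Set.nonempty_iff_ne_empty.2 hcon
      have h1 := hapart e (hF.1 he) e' (hF.1 he') hnon
      have h2 := hF.2 e he e' he' hne
      linarith
    have hU : μ (⋃ e ∈ F, Sig e) = ∑ e ∈ F, μ (Sig e) :=
      measure_biUnion_finset hdisj fun e he => hSigm e (hF.1 he)
    have hsub : (⋃ e ∈ F, Sig e) ⊆ A := by
      intro x hx
      simp only [mem_iUnion] at hx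
      obtain ⟨e, he, hxe⟩ := hx
      exact hSigA e (hF.1 he) hxe
    calc (F.card : ℝ≥0∞) * v0 = F.card • v0 := by rw [nsmul_eq_mul]
      _ ≤ ∑ e ∈ F, μ (Sig e) := Finset.card_nsmul_le_sum F _ v0 fun e he => hvol e (hF.1 he)
      _ = μ (⋃ e ∈ F, Sig e) := hU.symm
      _ ≤ μ A := measure_mono hsub
  -- a bound for the cardinality
  have hq : μ A / v0 ≠ ⊤ := ENNReal.div_ne_top hA hv0
  set n0 : ℕ := ⌊(μ A / v0).toReal⌋₊ with hn0
  have hbound : ∀ F : Finset E, Sep F → F.card ≤ n0 := by
    intro F hF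
    have h1 : (F.card : ℝ≥0∞) ≤ μ A / v0 := by
      rw [ENNReal.le_div_iff_mul_le (Or.inl hv0) (Or.inr hA)]
      exact hcard F hF
    have h2 : ((F.card : ℝ≥0∞)).toReal ≤ (μ A / v0).toReal := ENNReal.toReal_mono hq h1
    rw [ENNReal.toReal_natCast] at h2
    exact Nat.le_floor h2
  let P : ℕ → Prop := fun n => ∃ F : Finset E, Sep F ∧ F.card = n
  have hP0 : P 0 := ⟨∅, ⟨by simp, by simp⟩, rfl⟩
  have hspec : P (Nat.findGreatest P n0) := Nat.findGreatest_spec (Nat.zero_le n0) hP0
  obtain ⟨F, hF, hFc⟩ := hspec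
  refine ⟨F, hF.1, hcard F hF, ?_⟩
  intro z hz
  by_contra hnot
  have hfar : ∀ e ∈ F, r < dist z e := by
    intro e he
    by_contra hle
    apply hnot
    simp only [mem_iUnion]
    exact ⟨e, he, mem_closedBall.2 (not_lt.1 hle)⟩
  have hr : 0 ≤ r := by
    have hnon : (Sig z ∩ Sig z).Nonempty := by
      rw [inter_self]
      by_contra hcon
      rw [Set.not_nonempty_iff_eq_empty] at hcon
      have := hvol z hz
      rw [hcon, measure_empty] at this
      exact hv0 (le_antisymm this zero_le)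
    have := hapart z hz z hz hnon
    rwa [dist_self] at this
  have hzF : z ∉ F := by
    intro hzF
    have := hfar z hzF
    rw [dist_self] at this
    linarith
  have hSep' : Sep (insert z F) := by
    refine ⟨?_, ?_⟩
    · intro x hx
      rw [Finset.coe_insert] at hx
      rcases hx with rfl | hx
      · exact hz
      · exact hF.1 hx
    · intro e he e' he' hne
      rw [Finset.mem_insert] at he he'
      rcases he with rfl | he
      · rcases he' with rfl | he'
        · exact absurd rfl hne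
        · exact hfar e' he'
      · rcases he' with rfl | he'
        · rw [dist_comm]
          exact hfar e he
        · exact hF.2 e he e' he' hne
  have hcard' : (insert z F).card = Nat.findGreatest P n0 + 1 := by
    rw [Finset.card_insert_of_notMem hzF, hFc]
  have hle : Nat.findGreatest P n0 + 1 ≤ n0 := by
    rw [← hcard']
    exact hbound _ hSep'
  exact Nat.findGreatest_is_greatest (Nat.lt_succ_self _) hle ⟨insert z F, hSep', hcard'⟩

theorem exists_cover_set {K Z A : Set (EuclideanSpace ℝ (Fin 3))} (hK : IsCompact K)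
    (Sig : EuclideanSpace ℝ (Fin 3) → Set (EuclideanSpace ℝ (Fin 3))) {v0 : ℝ≥0∞}
    (hv0 : v0 ≠ 0) (hA : volume A ≠ ⊤) {d0 : ℝ} (hd0 : 0 ≤ d0)
    (hSigm : ∀ e ∈ Z, MeasurableSet (Sig e)) (hSigA : ∀ e ∈ Z, Sig e ⊆ A)
    (hvol : ∀ e ∈ Z, v0 ≤ volume (Sig e))
    (hapart : ∀ e ∈ Z, ∀ e' ∈ Z, (Sig e ∩ Sig e').Nonempty → dist e e' ≤ 4 * d0) :
    ∃ N : Set (EuclideanSpace ℝ (Fin 3)), IsCompact N ∧ N ⊆ K ∧
      (∀ x ∈ K, ∀ e ∈ Z, dist x e ≤ d0 → x ∈ N) ∧
      volume N * v0 ≤ volume A * ENNReal.ofReal (4 / 3 * Real.pi * (5 * d0) ^ 3) := by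
  obtain ⟨F, hFZ, hFc, hcov⟩ := packing_finite volume Sig hv0 hA hSigm hSigA hvol hapart
  refine ⟨K ∩ ⋃ e ∈ F, closedBall e (5 * d0), ?_, inter_subset_left, ?_, ?_⟩
  · exact hK.inter_right (isClosed_biUnion_finset fun e _ => isClosed_closedBall)
  · intro x hx e he hxe
    refine ⟨hx, ?_⟩
    have := hcov he
    simp only [mem_iUnion] at this ⊢
    obtain ⟨e', he', hee'⟩ := this
    refine ⟨e', he', mem_closedBall.2 ?_⟩
    have h1 := mem_closedBall.1 hee'
    have h2 := dist_triangle x e e'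
    linarith
  · have hball : ∀ e : EuclideanSpace ℝ (Fin 3), volume (closedBall e (5 * d0)) =
        ENNReal.ofReal (4 / 3 * Real.pi * (5 * d0) ^ 3) := by
      intro e
      rw [EuclideanSpace.volume_closedBall_fin_three, ← ENNReal.ofReal_pow (by positivity),
        ← ENNReal.ofReal_mul (by positivity)]
      congr 1
      ring
    have hN : volume (K ∩ ⋃ e ∈ F, closedBall e (5 * d0)) ≤
        (F.card : ℝ≥0∞) * ENNReal.ofReal (4 / 3 * Real.pi * (5 * d0) ^ 3) := by
      calc volume (K ∩ ⋃ e ∈ F, closedBall e (5 * d0))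
          ≤ volume (⋃ e ∈ F, closedBall e (5 * d0)) := measure_mono inter_subset_right
        _ ≤ ∑ e ∈ F, volume (closedBall e (5 * d0)) := measure_biUnion_finset_le _ _
        _ = (F.card : ℝ≥0∞) * ENNReal.ofReal (4 / 3 * Real.pi * (5 * d0) ^ 3) := by
            rw [Finset.sum_congr rfl fun e _ => hball e, Finset.sum_const, nsmul_eq_mul]
    calc volume (K ∩ ⋃ e ∈ F, closedBall e (5 * d0)) * v0
        ≤ (F.card : ℝ≥0∞) * ENNReal.ofReal (4 / 3 * Real.pi * (5 * d0) ^ 3) * v0 := by
          gcongr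
      _ = (F.card : ℝ≥0∞) * v0 * ENNReal.ofReal (4 / 3 * Real.pi * (5 * d0) ^ 3) := by ring
      _ ≤ volume A * ENNReal.ofReal (4 / 3 * Real.pi * (5 * d0) ^ 3) := by
          gcongr

end Vale.Agent.H9.GenK
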